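import Crest.Agent.Helper75.MC.Defs

/-!
# S0171 — package WP-D: pointwise bounds for the smoothstep of the averaged cuts

`cut_close` and `cut_grad` (statements verbatim from `Crest.Agent.Helper75.MC.Spec`).
-/

set_option autoImplicit false

namespace Crest.Agent.Helper12.MC

open Finset Crest.Agent.Helper75.MC

variable {n : ℕ}

/-- `ind T i` is `0` or `1`. -/
theorem ind_eq (T : Finset (Fin n)) (i : Fin n) : ind T i = 0 ∨ ind T i = 1 := by
  unfold ind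
  split_ifs <;> simp

theorem ind_nonneg (T : Finset (Fin n)) (i : Fin n) : 0 ≤ ind T i := by
  rcases ind_eq T i with h | h <;> rw [h] <;> norm_num

theorem ind_le_one (T : Finset (Fin n)) (i : Fin n) : ind T i ≤ 1 := by
  rcases ind_eq T i with h | h <;> rw [h] <;> norm_num

theorem cu_nonneg {B : Matrix (Fin n) (Fin n) ℝ} (hB0 : ∀ i j, 0 ≤ B i j)
    (i : Fin n) (T : Finset (Fin n)) : 0 ≤ cu B i T := by
  unfold cu
  exact Finset.sum_nonneg fun j _ => mul_nonneg (hB0 i j) (ind_nonneg T j)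

theorem cu_le_one {B : Matrix (Fin n) (Fin n) ℝ} (hB0 : ∀ i j, 0 ≤ B i j)
    (hB1 : ∀ i, ∑ j, B i j = 1) (i : Fin n) (T : Finset (Fin n)) : cu B i T ≤ 1 := by
  unfold cu
  calc ∑ j, B i j * ind T j ≤ ∑ j, B i j * 1 :=
        Finset.sum_le_sum fun j _ => mul_le_mul_of_nonneg_left (ind_le_one T j) (hB0 i j)
    _ = 1 := by simp [hB1 i]

/-- `1 - cu B i T = ∑ j, B i j * (1 - ind T j)`. -/
theorem one_sub_cu {B : Matrix (Fin n) (Fin n) ℝ} (hB1 : ∀ i, ∑ j, B i j = 1)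
    (i : Fin n) (T : Finset (Fin n)) : 1 - cu B i T = ∑ j, B i j * (1 - ind T j) := by
  unfold cu
  simp only [mul_sub, mul_one, Finset.sum_sub_distrib, hB1 i]

/-- smoothstep bound near `0`. -/
theorem Psi_le (p : ℝ) (h0 : 0 ≤ p) (h1 : p ≤ 1) : Psi p ≤ 9 / 8 * p := by
  unfold Psi
  nlinarith [mul_nonneg h0 (sq_nonneg (p - 3 / 4))]

/-- smoothstep bound near `1`. -/
theorem one_sub_Psi_le (p : ℝ) (h0 : 0 ≤ p) (h1 : p ≤ 1) : 1 - Psi p ≤ 9 / 8 * (1 - p) := by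
  unfold Psi
  nlinarith [mul_nonneg (sub_nonneg.mpr h1) (sq_nonneg ((1 - p) - 3 / 4))]

theorem Psi_nonneg (p : ℝ) (h0 : 0 ≤ p) (h1 : p ≤ 1) : 0 ≤ Psi p := by
  unfold Psi
  nlinarith [mul_nonneg (sq_nonneg p) (sub_nonneg.mpr h1), sq_nonneg p]

theorem Psi_le_one (p : ℝ) (h0 : 0 ≤ p) (h1 : p ≤ 1) : Psi p ≤ 1 := by
  unfold Psi
  nlinarith [mul_nonneg (sq_nonneg (1 - p)) h0, sq_nonneg (1 - p)]

/-- the exact difference identity of the smoothstep. -/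
theorem Psi_sub (p q : ℝ) :
    Psi p - Psi q = (p - q) * (3 * (p * (1 - p)) + 3 * (q * (1 - q)) + (p - q) ^ 2) := by
  unfold Psi
  ring

/-- pointwise version of `cut_close`. -/
theorem cut_close_pt {B : Matrix (Fin n) (Fin n) ℝ} (hB0 : ∀ i j, 0 ≤ B i j)
    (hB1 : ∀ i, ∑ j, B i j = 1) (i : Fin n) (T : Finset (Fin n)) :
    |ind T i - Psi (cu B i T)| ≤ 9 / 8 * ∑ j, B i j * |ind T i - ind T j| := by
  have h0 := cu_nonneg hB0 i T
  have h1 := cu_le_one hB0 hB1 i T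
  by_cases hi : i ∈ T
  · have hind : ind T i = 1 := by simp [ind, hi]
    rw [hind, abs_of_nonneg (sub_nonneg.mpr (Psi_le_one _ h0 h1))]
    have hs : ∑ j, B i j * |1 - ind T j| = 1 - cu B i T := by
      rw [one_sub_cu hB1]
      refine Finset.sum_congr rfl fun j _ => ?_
      rw [abs_of_nonneg (sub_nonneg.mpr (ind_le_one T j))]
    rw [hs]
    exact one_sub_Psi_le _ h0 h1
  · have hind : ind T i = 0 := by simp [ind, hi]
    rw [hind, zero_sub, abs_neg, abs_of_nonneg (Psi_nonneg _ h0 h1)]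
    have hs : ∑ j, B i j * |0 - ind T j| = cu B i T := by
      unfold cu
      refine Finset.sum_congr rfl fun j _ => ?_
      rw [zero_sub, abs_neg, abs_of_nonneg (ind_nonneg T j)]
    rw [hs]
    exact Psi_le _ h0 h1

theorem cut_close {lam : Finset (Fin n) → ℝ} (hlam : ∀ T, 0 ≤ lam T)
    {B : Matrix (Fin n) (Fin n) ℝ} (hB0 : ∀ i j, 0 ≤ B i j) (hB1 : ∀ i, ∑ j, B i j = 1)
    (i : Fin n) :
    ∑ T, lam T * |ind T i - Psi (cu B i T)| ≤ 9 / 8 * ∑ j, B i j * cd lam i j := by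
  calc ∑ T, lam T * |ind T i - Psi (cu B i T)|
      ≤ ∑ T, lam T * (9 / 8 * ∑ j, B i j * |ind T i - ind T j|) :=
        Finset.sum_le_sum fun T _ =>
          mul_le_mul_of_nonneg_left (cut_close_pt hB0 hB1 i T) (hlam T)
    _ = 9 / 8 * ∑ j, B i j * cd lam i j := by
        unfold cd
        simp only [Finset.mul_sum]
        rw [Finset.sum_comm]
        refine Finset.sum_congr rfl fun j _ => Finset.sum_congr rfl fun T _ => ?_
        ring

/-- weighted Cauchy–Schwarz in the form used for `cut_grad`: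
`(∑ lam |Δ| v)² ≤ (∑ lam Δ²) (∑ lam v) / 4` when `0 ≤ v ≤ 1/4`. -/
theorem cs_quarter {ι : Type*} (s : Finset ι) (lam Δ v : ι → ℝ) (hlam : ∀ T, 0 ≤ lam T)
    (hv0 : ∀ T, 0 ≤ v T) (hv : ∀ T, v T ≤ 1 / 4) :
    (∑ T ∈ s, lam T * (|Δ T| * v T)) ^ 2
      ≤ (∑ T ∈ s, lam T * Δ T ^ 2) * (∑ T ∈ s, lam T * v T) / 4 := by
  have h := Finset.sum_sq_le_sum_mul_sum_of_sq_le_mul s
    (r := fun T => lam T * (|Δ T| * v T)) (f := fun T => lam T * Δ T ^ 2)
    (g := fun T => lam T * v T / 4)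
    (fun T _ => mul_nonneg (hlam T) (sq_nonneg _))
    (fun T _ => div_nonneg (mul_nonneg (hlam T) (hv0 T)) (by norm_num))
    (fun T _ => by
      have h1 : (lam T * (|Δ T| * v T)) ^ 2 = lam T ^ 2 * Δ T ^ 2 * v T ^ 2 := by
        rw [mul_pow, mul_pow, sq_abs]; ring
      have h2 : lam T * Δ T ^ 2 * (lam T * v T / 4) = lam T ^ 2 * Δ T ^ 2 * (v T / 4) := by ring
      rw [h1, h2]
      have h3 : v T ^ 2 ≤ v T / 4 := by nlinarith [hv0 T, hv T]
      exact mul_le_mul_of_nonneg_left h3 (mul_nonneg (sq_nonneg _) (sq_nonneg _)))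
  have e : (∑ T ∈ s, lam T * v T / 4) = (∑ T ∈ s, lam T * v T) / 4 := by
    rw [Finset.sum_div]
  rw [e] at h
  calc (∑ T ∈ s, lam T * (|Δ T| * v T)) ^ 2
      ≤ (∑ T ∈ s, lam T * Δ T ^ 2) * ((∑ T ∈ s, lam T * v T) / 4) := h
    _ = (∑ T ∈ s, lam T * Δ T ^ 2) * (∑ T ∈ s, lam T * v T) / 4 := by ring

theorem cut_grad {lam : Finset (Fin n) → ℝ} (hlam : ∀ T, 0 ≤ lam T)
    {B : Matrix (Fin n) (Fin n) ℝ} (hB0 : ∀ i j, 0 ≤ B i j) (hB1 : ∀ i, ∑ j, B i j = 1)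
    (i j : Fin n) :
    (∑ T, lam T * |Psi (cu B i T) - Psi (cu B j T)|) ^ 2
      ≤ 27 / 4 * (∑ T, lam T * (cu B i T - cu B j T) ^ 2)
            * ((∑ T, lam T * (cu B i T * (1 - cu B i T)))
              + (∑ T, lam T * (cu B j T * (1 - cu B j T))))
        + 3 * (∑ T, lam T * (cu B i T - cu B j T) ^ 2) ^ 2 := by
  set p : Finset (Fin n) → ℝ := fun T => cu B i T with hp
  set q : Finset (Fin n) → ℝ := fun T => cu B j T with hq
  have hp0 : ∀ T, 0 ≤ p T := fun T => cu_nonneg hB0 i T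
  have hp1 : ∀ T, p T ≤ 1 := fun T => cu_le_one hB0 hB1 i T
  have hq0 : ∀ T, 0 ≤ q T := fun T => cu_nonneg hB0 j T
  have hq1 : ∀ T, q T ≤ 1 := fun T => cu_le_one hB0 hB1 j T
  have hvp0 : ∀ T, 0 ≤ p T * (1 - p T) := fun T => mul_nonneg (hp0 T) (sub_nonneg.mpr (hp1 T))
  have hvq0 : ∀ T, 0 ≤ q T * (1 - q T) := fun T => mul_nonneg (hq0 T) (sub_nonneg.mpr (hq1 T))
  have hvp : ∀ T, p T * (1 - p T) ≤ 1 / 4 := fun T => by nlinarith [sq_nonneg (p T - 1 / 2)]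
  have hvq : ∀ T, q T * (1 - q T) ≤ 1 / 4 := fun T => by nlinarith [sq_nonneg (q T - 1 / 2)]
  have hΔ1 : ∀ T, |p T - q T| ≤ 1 := fun T => by
    rw [abs_le]; constructor <;> linarith [hp0 T, hp1 T, hq0 T, hq1 T]
  -- the three pieces
  set a : ℝ := ∑ T, lam T * (|p T - q T| * (p T * (1 - p T))) with ha
  set b : ℝ := ∑ T, lam T * (|p T - q T| * (q T * (1 - q T))) with hb
  set c : ℝ := ∑ T, lam T * (|p T - q T| * (p T - q T) ^ 2) with hc
  set N2 : ℝ := ∑ T, lam T * (p T - q T) ^ 2 with hN2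
  set Vp : ℝ := ∑ T, lam T * (p T * (1 - p T)) with hVp
  set Vq : ℝ := ∑ T, lam T * (q T * (1 - q T)) with hVq
  have hsum : ∑ T, lam T * |Psi (p T) - Psi (q T)| = 3 * a + 3 * b + c := by
    rw [ha, hb, hc, Finset.mul_sum, Finset.mul_sum, ← Finset.sum_add_distrib,
      ← Finset.sum_add_distrib]
    refine Finset.sum_congr rfl fun T _ => ?_
    rw [Psi_sub, abs_mul,
      abs_of_nonneg (a := 3 * (p T * (1 - p T)) + 3 * (q T * (1 - q T)) + (p T - q T) ^ 2)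
        (by nlinarith [hvp0 T, hvq0 T, sq_nonneg (p T - q T)])]
    ring
  have hN2nn : 0 ≤ N2 := Finset.sum_nonneg fun T _ => mul_nonneg (hlam T) (sq_nonneg _)
  have ha2 : a ^ 2 ≤ N2 * Vp / 4 := cs_quarter _ lam (fun T => p T - q T) _ hlam hvp0 hvp
  have hb2 : b ^ 2 ≤ N2 * Vq / 4 := cs_quarter _ lam (fun T => p T - q T) _ hlam hvq0 hvq
  have hc0 : 0 ≤ c := Finset.sum_nonneg fun T _ =>
    mul_nonneg (hlam T) (mul_nonneg (abs_nonneg _) (sq_nonneg _))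
  have hcN : c ≤ N2 := Finset.sum_le_sum fun T _ =>
    mul_le_mul_of_nonneg_left
      (by nlinarith [hΔ1 T, sq_nonneg (p T - q T), abs_nonneg (p T - q T)]) (hlam T)
  have hc2 : c ^ 2 ≤ N2 ^ 2 := by nlinarith
  rw [hsum]
  nlinarith [sq_nonneg (3 * a - 3 * b), sq_nonneg (3 * a - c), sq_nonneg (3 * b - c)]

end Crest.Agent.Helper12.MC
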